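import Vale.Agent.P076W43.Main
import Vale.Agent.P076W43.St

/-!
# P076: Carleson's problem in every dimension `n ≥ 2`, word for word
-/

open MeasureTheory Vale.Agent.P076S43

/-- The Fourier transform on `L²(ℝⁿ)`, the regularised integrals and the flow `e^{itΔ}` exist;
for `n ≥ 2` convergence almost everywhere holds in `H^{s_n}`, in a strong form; it holds for all
data in `H^s` if and only if `s ≥ s_n`. -/
theorem Vale.Agent.Results.P076.AAFourier.result (n : ℕ) :
    (∃! F : L2 n → L2 n, IsFourier F) ∧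
    ∀ F : L2 n → L2 n, IsFourier F →
      (∀ (f : L2 n) (t a : ℝ) (x : Rn n), 0 < a → Integrable (kernel F f t a x) (vol n)) ∧
      (∃! U : ℝ → L2 n → L2 n, IsFlow F U) ∧
      (2 ≤ n →
        (∀ f : L2 n, hNormSq F ((n : ℝ) / (2 * (n + 1))) f < ⊤ →
          (∀ᵐ x ∂vol n, ConvergesAt F f x) ∧
          ∃ u : ℝ → Rn n → ℂ,
            (∀ᵐ x ∂vol n, Continuous (fun t => u t x) ∧ u 0 x = ev f x ∧
              ∀ t, Value F f t x (u t x)) ∧
            ∀ U, IsFlow F U → ∀ t, ev (U t f) =ᵐ[vol n] u t) ∧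
        ∀ s : ℝ, 0 ≤ s →
          ((∀ f : L2 n, hNormSq F s f < ⊤ → ∀ᵐ x ∂vol n, ConvergesAt F f x) ↔
            (n : ℝ) / (2 * (n + 1)) ≤ s)) := by
  refine ⟨P076W43.existsUnique_fourier, fun F hF => ?_⟩
  obtain rfl := P076W43.IsFourier.eq (F := F) hF
  exact ⟨fun f t _ x ha => P076W43.integrable_kernel _ f t ha x, P076W43.existsUnique_flow,
    fun hn => ⟨P076W43.strong hn le_rfl, fun _ h0 => P076W43.range_iff hn h0⟩⟩
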